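import Vale.Agent.P186.Defs
import Vale.Agent.P186.HypAux
import Vale.Agent.P194.Chain

namespace Vale.Agent.P186

open Vale.Agent.P194 SimpleGraph

section Aux

variable {P V H : Type} [Group H] {D : Design P V} {σ : P → V → V}

theorem hyp_step (Ψ : FreeGroup P →* H) {S : Set H} (hS : ∀ s, gen Ψ s true ∈ S) (a : H) (s : P)
    (b : Bool) : a = a * gen Ψ s b ∨ (mulCayley S).Adj a (a * gen Ψ s b) := by
  by_cases h : a = a * gen Ψ s b
  · exact Or.inl h
  · refine Or.inr ((mulCayley_adj' S _ _).2 ⟨h, gen Ψ s true, hS s, ?_⟩)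
    cases b
    · right
      have := gen_mul_not Ψ s false
      simp only [Bool.not_false] at this
      rw [mul_assoc, this, mul_one]
    · exact Or.inl rfl

theorem hyp_word_walk (Ψ : FreeGroup P →* H) {S : Set H} (hS : ∀ s, gen Ψ s true ∈ S) (a : H)
    (w : List (P × Bool)) :
    ∃ W : (mulCayley S).Walk a (a * Ψ (FreeGroup.mk w)), W.length ≤ w.length := by
  induction w generalizing a with
  | nil =>
    have : FreeGroup.mk ([] : List (P × Bool)) = 1 := rfl
    rw [this, map_one, mul_one]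
    exact ⟨Walk.nil, le_rfl⟩
  | cons e w ih =>
    obtain ⟨s, b⟩ := e
    rw [map_mk_cons, ← mul_assoc]
    obtain ⟨W, hW⟩ := ih (a * gen Ψ s b)
    rcases hyp_step Ψ hS a s b with h | h
    · exact ⟨W.copy h.symm rfl, by simp; omega⟩
    · exact ⟨Walk.cons h W, by simp; omega⟩

theorem hyp_walk_word (Ψ : FreeGroup P →* H) {S : Set H} (hS : ∀ g ∈ S, ∃ s, gen Ψ s true = g)
    (Ω : H → H → ℤ) (hΩ : ∀ x y, Ω x y = - Ω y x) (u : H) {a b : H}
    (W : (mulCayley S).Walk a b) :
    ∃ w : List (P × Bool), w.length = W.length ∧ a * Ψ (FreeGroup.mk w) = b ∧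
      ∀ p, u * p = a →
        pathsum Ψ (fun p s => Ω (u * p) (u * p * gen Ψ s true)) p w = wsum Ω W := by
  induction W with
  | nil =>
    have : FreeGroup.mk ([] : List (P × Bool)) = 1 := rfl
    exact ⟨[], rfl, by rw [this, map_one, mul_one], fun _ _ => rfl⟩
  | @cons a c b h W ih =>
    obtain ⟨w, h1, h2, h3⟩ := ih
    obtain ⟨-, g, hg, hh⟩ := (mulCayley_adj' S _ _).1 h
    obtain ⟨s, rfl⟩ := hS g hg
    have e1 := gen_mul_not Ψ s false
    have e2 := gen_mul_not Ψ s true
    simp only [Bool.not_false, Bool.not_true] at e1 e2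
    rcases hh with hh | hh
    · refine ⟨(s, true) :: w, by simp [h1], by rw [map_mk_cons, ← mul_assoc, hh, h2], ?_⟩
      intro p hp
      simp only [pathsum, wsum, if_true]
      rw [h3 _ (by rw [← mul_assoc, hp, hh]), hp, hh]
    · have hc : a * gen Ψ s false = c := by rw [hh, mul_assoc, e2, mul_one]
      refine ⟨(s, false) :: w, by simp [h1], by rw [map_mk_cons, ← mul_assoc, hc, h2], ?_⟩
      intro p hp
      simp only [pathsum, wsum, Bool.false_eq_true, if_false]
      rw [h3 _ (by rw [← mul_assoc, hp, hc]), ← mul_assoc, hp, hc, ← hh, hΩ a c]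

theorem hyp_rpath_tele {Ψ : FreeGroup P →* H} (f : H → ℤ) {u v : V × H} {F : List (Rc P V H)}
    (h : RPath D σ Ψ u F v) :
    (F.map (fun r => f (r.p * gen Ψ r.s r.b) - f r.p)).sum = f v.2 - f u.2 := by
  induction F generalizing u with
  | nil => obtain rfl : u = v := h; simp
  | cons r F ih =>
    obtain ⟨-, h2, -, -, h5⟩ := h
    rw [List.map_cons, List.sum_cons, ih h5, h2]
    ring

theorem hyp_rpath_pos (hσ : IsGraph D σ) {Ψ : FreeGroup P →* H} (γ : V → H)
    (hγ : ∀ x s, s ∈ D.L x → γ (σ s x) = γ x * gen Ψ s (D.side x)) (x0 : H) {u v : V × H}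
    {F : List (Rc P V H)} (h : RPath D σ Ψ u F v) (hu : u.2 = x0 * γ u.1) :
    ∀ r ∈ F, r.b = D.side r.x ∧ r.p = x0 * γ r.x ∧
      r.p * gen Ψ r.s r.b = x0 * γ (σ r.s r.x) := by
  induction F generalizing u with
  | nil => simp
  | cons r F ih =>
    obtain ⟨h1, h2, h3, h4, h5⟩ := h
    have e1 : r.p = x0 * γ r.x := by rw [h2, hu, h1]
    have e2 : r.p * gen Ψ r.s r.b = x0 * γ (σ r.s r.x) := by
      rw [hγ _ _ ((hσ.moves _ _).1 h4), e1, h3, mul_assoc]
    intro r' hr'
    rcases List.mem_cons.1 hr' with rfl | hr'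
    · exact ⟨h3, e1, e2⟩
    · exact ih h5 e2 r' hr'

theorem hyp_sum_list {α β : Type} (φ : α → (β →₀ ℤ)) (Φ : β → ℤ) (l : List α) :
    ((l.map φ).sum).sum (fun e k => k * Φ e) =
      (l.map (fun r => (φ r).sum (fun e k => k * Φ e))).sum := by
  induction l with
  | nil => simp
  | cons a l ih =>
    rw [List.map_cons, List.sum_cons, Finsupp.sum_add_index' (by simp) (by intros; ring), ih]
    simp

theorem hyp_flatten_le {α : Type} (φ : α → ℤ) (K : ℤ) (Fs : List (List α))
    (h : ∀ F ∈ Fs, (F.map φ).sum ≤ K * F.length) :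
    (Fs.flatten.map φ).sum ≤ K * Fs.flatten.length := by
  induction Fs with
  | nil => simp
  | cons F Fs ih =>
    have h1 := h F List.mem_cons_self
    have h2 := ih (fun F' hF' => h F' (List.mem_cons_of_mem _ hF'))
    rw [List.flatten_cons, List.map_append, List.sum_append, List.length_append]
    push_cast
    linarith

theorem hyp_face_le {α : Type} (a b : α → ℤ) (c K : ℤ) (F : List α)
    (h0 : (F.map a).sum = 0) (h : ∀ r ∈ F, a r * (b r - c) ≤ K) :
    (F.map (fun r => a r * b r)).sum ≤ K * F.length := by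
  have key : (F.map (fun r => a r * b r)).sum - c * (F.map a).sum ≤ K * F.length := by
    clear h0
    induction F with
    | nil => simp
    | cons r F ih =>
      have h1 := h r List.mem_cons_self
      have h2 := ih (fun r' hr' => h r' (List.mem_cons_of_mem _ hr'))
      simp only [List.map_cons, List.sum_cons, List.length_cons]
      push_cast
      linarith
  rw [h0] at key
  simpa using key

end Aux

variable {P V : Type} [Fintype P] [Fintype V] [DecidableEq P] [DecidableEq V]

/-- H1. Linear homological fillings by faces of bounded diameter give thin triangles. -/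
theorem hyperbolic_Gq {D : Design P V} {σ : P → V → V} (hσ : IsGraph D σ) (h : Asph D σ) :
    IsWordHyperbolic (Gq D σ) := by
  classical
  obtain ⟨Ψ, hΨ⟩ : ∃ Ψ, Ψ = qmk D σ := ⟨_, rfl⟩
  have hsurj : ∀ g : Gq D σ, ∃ w, Ψ (FreeGroup.mk w) = g := by
    intro g
    obtain ⟨n, hn⟩ := QuotientGroup.mk'_surjective (Subgroup.normalClosure (rels D σ)) g
    exact ⟨n.toWord, by rw [FreeGroup.mk_toWord, hΨ]; exact hn⟩
  have hk : Kills D σ Ψ := hΨ ▸ kills_qmk D σ
  let S : Finset (Gq D σ) := Finset.univ.image (fun s => gen Ψ s true)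
  have hS1 : ∀ s, gen Ψ s true ∈ (S : Set (Gq D σ)) := fun s => by simp [S]
  have hS2 : ∀ g ∈ (S : Set (Gq D σ)), ∃ s, gen Ψ s true = g := fun g hg => by simpa [S] using hg
  have hc : (mulCayley (S : Set (Gq D σ))).Connected := by
    refine ⟨fun a b => ?_⟩
    obtain ⟨w, hw⟩ := hsurj (a⁻¹ * b)
    obtain ⟨W, -⟩ := hyp_word_walk Ψ hS1 a w
    rw [hw, mul_inv_cancel_left] at W
    exact ⟨W⟩
  obtain ⟨γ, hγ⟩ := exists_gamma_gen hσ hk
  choose wγ hwγ using fun x => hsurj (γ x)
  obtain ⟨D0, hD0⟩ : ∃ D0 : ℕ, ∀ a x, (mulCayley (S : Set (Gq D σ))).dist a (a * γ x) ≤ D0 := by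
    refine ⟨Finset.univ.sup (fun x => (wγ x).length), fun a x => ?_⟩
    obtain ⟨W, hW⟩ := hyp_word_walk Ψ hS1 a (wγ x)
    have := (dist_le W).trans hW
    rw [hwγ] at this
    exact this.trans (Finset.le_sup (f := fun x => (wγ x).length) (Finset.mem_univ x))
  have hone : ∀ a s b, (mulCayley (S : Set (Gq D σ))).dist a (a * gen Ψ s b) ≤ 1 := by
    intro a s b
    rcases hyp_step Ψ hS1 a s b with h1 | h1
    · rw [← h1]; simp
    · exact hyp_adj_le h1
  obtain ⟨C0, hC0⟩ := h.fill
  rw [← hΨ] at hC0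
  have hK : Stokes (mulCayley (S : Set (Gq D σ))) (2 * D0 * C0) := by
    intro f ψ hf hψ u W
    obtain ⟨w, w1, w2, w3⟩ := hyp_walk_word Ψ hS2 (fun x y => (f y - f x) * (ψ x + ψ y))
      (fun x y => by ring) u W
    have w4 : qmk D σ (FreeGroup.mk w) = 1 := by rw [← hΨ]; simpa using w2
    obtain ⟨c, hc1⟩ := exists_fill hσ Ψ w4
    obtain ⟨Fs, F1, F2, F3⟩ := hC0 w c hc1
    have e1 := hc1.pathsum_eq hσ hk
      (fun p s => (f (u * p * gen Ψ s true) - f (u * p)) * (ψ (u * p) + ψ (u * p * gen Ψ s true)))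
    rw [← w3 1 (mul_one u), ← e1, ← F2, hyp_sum_list]
    have e2 : ∀ F ∈ Fs, (F.map (fun r => (cls1 D σ Ψ r.p r.x r.s).sum (fun e k => k *
        ((f (u * e.1 * gen Ψ e.2.2 true) - f (u * e.1)) *
          (ψ (u * e.1) + ψ (u * e.1 * gen Ψ e.2.2 true)))))).sum ≤ (2 * D0 : ℤ) * F.length := by
      intro F hF
      obtain ⟨u0, hu0⟩ := F1 F hF
      have hpos := hyp_rpath_pos hσ γ hγ (u0.2 * (γ u0.1)⁻¹) hu0 (by simp)
      have htele := hyp_rpath_tele (fun p => f (u * p)) hu0
      rw [sub_self] at htele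
      have e3 := hyp_face_le (fun r : Rc P V (Gq D σ) => f (u * (r.p * gen Ψ r.s r.b)) - f (u * r.p))
        (fun r => ψ (u * r.p) + ψ (u * (r.p * gen Ψ r.s r.b)))
        (2 * ψ (u * (u0.2 * (γ u0.1)⁻¹))) (2 * D0) F htele (by
          intro r hr
          obtain ⟨-, p2, p3⟩ := hpos r hr
          have a1 := hone (u * r.p) r.s r.b
          rw [mul_assoc] at a1
          have a2 := hf (u * r.p) (u * (r.p * gen Ψ r.s r.b))
          have a3 := hf (u * (r.p * gen Ψ r.s r.b)) (u * r.p)
          rw [dist_comm] at a3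
          have b1 := hD0 (u * (u0.2 * (γ u0.1)⁻¹)) r.x
          have b2 := hD0 (u * (u0.2 * (γ u0.1)⁻¹)) (σ r.s r.x)
          rw [mul_assoc, ← p2] at b1
          rw [mul_assoc, ← p3] at b2
          have b3 := hψ (u * (u0.2 * (γ u0.1)⁻¹)) (u * r.p)
          have b4 := hψ (u * r.p) (u * (u0.2 * (γ u0.1)⁻¹))
          have b5 := hψ (u * (u0.2 * (γ u0.1)⁻¹)) (u * (r.p * gen Ψ r.s r.b))
          have b6 := hψ (u * (r.p * gen Ψ r.s r.b)) (u * (u0.2 * (γ u0.1)⁻¹))
          rw [dist_comm] at b4 b6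
          have c1 : |f (u * (r.p * gen Ψ r.s r.b)) - f (u * r.p)| ≤ 1 := by
            rw [abs_le]; constructor <;> omega
          have c2 : |ψ (u * r.p) + ψ (u * (r.p * gen Ψ r.s r.b)) -
              2 * ψ (u * (u0.2 * (γ u0.1)⁻¹))| ≤ 2 * D0 := by
            rw [abs_le]; constructor <;> omega
          refine (le_abs_self _).trans ?_
          rw [abs_mul]
          calc _ ≤ 1 * (2 * (D0 : ℤ)) := mul_le_mul c1 c2 (abs_nonneg _) (by norm_num)
            _ = _ := one_mul _)
      refine le_of_eq_of_le ?_ e3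
      congr 1
      refine List.map_congr_left (fun r hr => ?_)
      rw [sum_cls1_pathsum Ψ (fun p s => (f (u * p * gen Ψ s true) - f (u * p)) *
        (ψ (u * p) + ψ (u * p * gen Ψ s true))), (hpos r hr).1]
      have e4 := gen_mul_not Ψ r.s false
      simp only [Bool.not_false] at e4
      cases D.side r.x
      · simp only [Bool.false_eq_true, if_false, mul_assoc, e4, mul_one]
        ring
      · simp only [if_true, mul_assoc]
    refine (hyp_flatten_le _ _ Fs e2).trans ?_
    rw [← w1]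
    have : (Fs.flatten.length : ℤ) ≤ C0 * w.length := by exact_mod_cast F3
    push_cast
    rw [mul_assoc (2 * (D0 : ℤ))]
    exact mul_le_mul_of_nonneg_left this (by positivity)
  refine ⟨S, ?_, 168 * (2 * D0 * C0) + 3, fun x y z p q r => hyp_thin hc hK x y z p q r⟩
  rw [eq_top_iff]
  intro g _
  obtain ⟨w, rfl⟩ := hsurj g
  induction w with
  | nil =>
    have : FreeGroup.mk ([] : List (P × Bool)) = 1 := rfl
    rw [this, map_one]
    exact Subgroup.one_mem _
  | cons e w ih =>
    obtain ⟨s, b⟩ := e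
    rw [map_mk_cons]
    refine Subgroup.mul_mem _ ?_ (ih trivial)
    cases b
    · have := gen_not Ψ s true
      simp only [Bool.not_true] at this
      rw [this]
      exact Subgroup.inv_mem _ (Subgroup.subset_closure (hS1 s))
    · exact Subgroup.subset_closure (hS1 s)

end Vale.Agent.P186
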